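import Vale.Agent.P032.H388.Tri

/-!
# P032: unit triangles, both outer apexes of one vertex with the free colours

`core388` : `y1 = (ab | ef)`, `y2 = (cd | ef)` two-pair points at distance one, `V` a common point of
their circles, `e, f` in the palettes of `V + y1 - y2` and `V + y2 - y1`, the other common point
`y1 + y2 - V` of order at most three: impossible.  Nothing is assumed on the palette of `V`.
-/

open Set Filter Topology Metric

noncomputable section

namespace Vale.Agent.P032.H388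

open Vale.Agent.P032.Six Vale.Agent.P032.S5.H767 Vale.Agent.P032.H695 Vale.Agent.P032.H460

variable {U : Fin 6 → Set ℂ} {T : ℂ → Set (Fin 6)} {V z v p q w y1 y2 : ℂ} {a b c d e f : Fin 6}

/-- **both outer apexes of `V` with `e`, `f`**: `y1 = (ab | ef)`, `y2 = (cd | ef)`, `V` any point -/
theorem core388 (h : Irr U T) (nd : [a, b, c, d, e, f].Nodup)
    (h1 : DPt T y1 a b e f) (h2 : DPt T y2 c d e f) (d1 : dist y1 V = 1) (d2 : dist y2 V = 1)
    (d12 : dist y1 y2 = 1) (ep : e ∈ T (V + y1 - y2)) (fp : f ∈ T (V + y1 - y2))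
    (eq' : e ∈ T (V + y2 - y1)) (fq : f ∈ T (V + y2 - y1))
    (hw : (T (y1 + y2 - V)).ncard ≤ 3) : False := by
  have hn := nd
  simp only [List.nodup_cons, List.mem_cons, List.not_mem_nil, or_false, not_or, List.nodup_nil,
    and_true, not_false_eq_true] at hn
  obtain ⟨⟨ab, ac, ad, ae, af⟩, ⟨bc, bd, be, bf⟩, ⟨cd, ce, cf⟩, ⟨de, df⟩, ef⟩ := hn
  have d21 : dist y2 y1 = 1 := by rw [dist_comm]; exact d12
  have dV1 : dist V y1 = 1 := by rw [dist_comm]; exact d1
  have dV2 : dist V y2 = 1 := by rw [dist_comm]; exact d2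
  have p1 : dist (V + y1 - y2) y1 = 1 := by
    rw [dist_eq_norm, show V + y1 - y2 - y1 = V - y2 by ring, ← dist_eq_norm]; exact dV2
  have q2 : dist (V + y2 - y1) y2 = 1 := by
    rw [dist_eq_norm, show V + y2 - y1 - y2 = V - y1 by ring, ← dist_eq_norm]; exact dV1
  have w1 : dist (y1 + y2 - V) y1 = 1 := by
    rw [dist_eq_norm, show y1 + y2 - V - y1 = y2 - V by ring, ← dist_eq_norm]; exact d2
  have w2 : dist (y1 + y2 - V) y2 = 1 := by
    rw [dist_eq_norm, show y1 + y2 - V - y2 = y1 - V by ring, ← dist_eq_norm]; exact d1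
  -- `ab` is no letter of `S(y1)` at `w`, `cd` is no letter of `S(y2)` at `w`
  have k1 : y1 + y2 - V ∉ closure (Ex T y1 {a, b}) := by
    have h5 := h.anti_clo h1 p1 ep fp
    rwa [show 2 * y1 - (V + y1 - y2) = y1 + y2 - V by ring] at h5
  have k2 : y1 + y2 - V ∉ closure (Ex T y2 {c, d}) := by
    have h5 := h.anti_clo h2 q2 eq' fq
    rwa [show 2 * y2 - (V + y2 - y1) = y1 + y2 - V by ring] at h5
  have C1 := ctr_of h h1 (e := c) (f := d) (by
    simp only [List.nodup_cons, List.mem_cons, List.not_mem_nil, or_false, not_or, List.nodup_nil,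
      and_true, not_false_eq_true]
    exact ⟨⟨ab, ae, af, ac, ad⟩, ⟨be, bf, bc, bd⟩, ⟨ef, Ne.symm ce, Ne.symm de⟩,
      ⟨Ne.symm cf, Ne.symm df⟩, cd⟩)
  have C2 := ctr_of h h2 (e := a) (f := b) (by
    simp only [List.nodup_cons, List.mem_cons, List.not_mem_nil, or_false, not_or, List.nodup_nil,
      and_true, not_false_eq_true]
    exact ⟨⟨cd, ce, cf, Ne.symm ac, Ne.symm bc⟩, ⟨de, df, Ne.symm ad, Ne.symm bd⟩,
      ⟨ef, Ne.symm ae, Ne.symm be⟩, ⟨Ne.symm af, Ne.symm bf⟩, ab⟩)
  have l1 := letters388 C1 k1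
  have l2 := letters388 C2 k2
  have e1 : e ∈ T y1 := by rw [h1.pal]; simp
  have a1 : a ∈ T y1 := by rw [h1.pal]; simp
  have b1 : b ∈ T y1 := by rw [h1.pal]; simp
  have e2 : e ∈ T y2 := by rw [h2.pal]; simp
  have c2 : c ∈ T y2 := by rw [h2.pal]; simp
  have dd2 : d ∈ T y2 := by rw [h2.pal]; simp
  by_cases hef : e ∈ T (y1 + y2 - V) ∧ f ∈ T (y1 + y2 - V)
  · by_cases hcd : c ∈ T (y1 + y2 - V) ∨ d ∈ T (y1 + y2 - V)
    · -- `S(y2)` shows only `ef`
      refine apex460 h (v := y1) (z := y2) d12 w2 w1 (l2.mono fun x hx => ?_) e1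
      rcases hx.2 with h5 | h5 | h5
      · exfalso
        rcases hcd with h6 | h6
        · exact not_four460 hw (hx.1 h5) h6 hef.1 hef.2 (by simp [ac, ae, af, ce, cf, ef])
        · exact not_four460 hw (hx.1 h5) h6 hef.1 hef.2 (by simp [ad, ae, af, de, df, ef])
      · exfalso
        rcases hcd with h6 | h6
        · exact not_four460 hw (hx.1 h5) h6 hef.1 hef.2 (by simp [bc, be, bf, ce, cf, ef])
        · exact not_four460 hw (hx.1 h5) h6 hef.1 hef.2 (by simp [bd, be, bf, de, df, ef])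
      · exact (pair_sub460 h5).1
    · -- `S(y1)` shows only `ef`
      push Not at hcd
      refine apex460 h (v := y2) (z := y1) d21 w1 w2 (l1.mono fun x hx => ?_) e2
      rcases hx.2 with h5 | h5 | h5
      · exact absurd (hx.1 h5) hcd.1
      · exact absurd (hx.1 h5) hcd.2
      · exact (pair_sub460 h5).1
  · -- only single letters
    have hc : c ∈ T (y1 + y2 - V) := by
      by_contra hc
      refine apex460 h (v := y2) (z := y1) d21 w1 w2 (l1.mono fun x hx => ?_) dd2
      rcases hx.2 with h5 | h5 | h5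
      · exact absurd (hx.1 h5) hc
      · exact h5
      · exact absurd ⟨hx.1 (pair_sub460 h5).1, hx.1 (pair_sub460 h5).2⟩ hef
    have hd : d ∈ T (y1 + y2 - V) := by
      by_contra hd
      refine apex460 h (v := y2) (z := y1) d21 w1 w2 (l1.mono fun x hx => ?_) c2
      rcases hx.2 with h5 | h5 | h5
      · exact h5
      · exact absurd (hx.1 h5) hd
      · exact absurd ⟨hx.1 (pair_sub460 h5).1, hx.1 (pair_sub460 h5).2⟩ hef
    have ha : a ∈ T (y1 + y2 - V) := by
      by_contra ha
      refine apex460 h (v := y1) (z := y2) d12 w2 w1 (l2.mono fun x hx => ?_) b1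
      rcases hx.2 with h5 | h5 | h5
      · exact absurd (hx.1 h5) ha
      · exact h5
      · exact absurd ⟨hx.1 (pair_sub460 h5).1, hx.1 (pair_sub460 h5).2⟩ hef
    have hb : b ∈ T (y1 + y2 - V) := by
      by_contra hb
      refine apex460 h (v := y1) (z := y2) d12 w2 w1 (l2.mono fun x hx => ?_) a1
      rcases hx.2 with h5 | h5 | h5
      · exact h5
      · exact absurd (hx.1 h5) hb
      · exact absurd ⟨hx.1 (pair_sub460 h5).1, hx.1 (pair_sub460 h5).2⟩ hef
    exact not_four460 hw ha hb hc hd (by simp [ab, ac, ad, bc, bd, cd])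

end Vale.Agent.P032.H388
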